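import Mathlib

/-!
P079: two consequences of uniform convexity: a strict parallelogram bound for averages, and the
finite intersection property for bounded closed convex sets.
-/

open scoped BigOperators
open Filter Topology

namespace Vale.Agent.P079

variable {Y : Type*} [NormedAddCommGroup Y] [NormedSpace ℝ Y] [UniformConvexSpace Y]

theorem sq_norm_add_le {η : ℝ} (hη : 0 < η) :
    ∃ c : ℝ, 0 < c ∧ c ≤ 1 ∧ ∀ a b : Y,
      ‖a + b‖ ^ 2 + c * ‖a - b‖ ^ 2 ≤ (2 + c * η ^ 2) * (‖a‖ ^ 2 + ‖b‖ ^ 2) := by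
  obtain ⟨δ₀, hδ₀, h₀⟩ := exists_forall_closed_ball_dist_add_le_two_sub Y hη
  set δ := min δ₀ 1
  have hδ : 0 < δ := lt_min hδ₀ one_pos
  have hδ1 : δ ≤ 1 := min_le_right _ _
  refine ⟨δ ^ 2 / 64, by positivity, by nlinarith, fun a b => ?_⟩
  set S := ‖a‖ ^ 2 + ‖b‖ ^ 2 with hS
  have hS0 : 0 ≤ S := by positivity
  have hsum : ‖a + b‖ ≤ ‖a‖ + ‖b‖ := norm_add_le a b
  have hdiff : ‖a - b‖ ≤ ‖a‖ + ‖b‖ := norm_sub_le a b
  have h2 : ‖a + b‖ ^ 2 ≤ 2 * S := by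
    nlinarith [sq_nonneg (‖a‖ - ‖b‖), norm_nonneg (a + b)]
  have hd2 : ‖a - b‖ ^ 2 ≤ 2 * S := by
    nlinarith [sq_nonneg (‖a‖ - ‖b‖), norm_nonneg (a - b)]
  by_cases hcase : ‖a - b‖ ^ 2 ≤ η ^ 2 * S
  · nlinarith
  push Not at hcase
  suffices h : ‖a + b‖ ^ 2 ≤ 2 * S * (1 - δ ^ 2 / 64) by
    nlinarith [mul_nonneg (mul_nonneg (sq_nonneg η) hS0) (sq_nonneg δ),
      mul_le_mul_of_nonneg_left hd2 (by positivity : (0 : ℝ) ≤ δ ^ 2 / 64)]
  set M := max ‖a‖ ‖b‖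
  have haM : ‖a‖ ≤ M := le_max_left _ _
  have hbM : ‖b‖ ≤ M := le_max_right _ _
  have hMS : M ^ 2 ≤ S := by
    rcases max_cases ‖a‖ ‖b‖ with ⟨e, _⟩ | ⟨e, _⟩ <;>
      simp only [M, S, e] <;> nlinarith [sq_nonneg ‖a‖, sq_nonneg ‖b‖]
  have hSM : S ≤ 2 * M ^ 2 := by nlinarith [norm_nonneg a, norm_nonneg b]
  have hMpos : 0 < M := by
    by_contra hM
    push Not at hM
    have : ‖a - b‖ = 0 := le_antisymm (by linarith) (norm_nonneg _)
    nlinarith [mul_nonneg (sq_nonneg η) hS0]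
  by_cases hbal : |‖a‖ - ‖b‖| ≤ δ * M / 4
  · have hab : η * M ≤ ‖a - b‖ := by
      nlinarith [norm_nonneg (a - b), mul_pos hη hMpos, mul_le_mul_of_nonneg_left hMS (sq_nonneg η)]
    have hn : ∀ x : Y, ‖x‖ ≤ M → ‖M⁻¹ • x‖ ≤ 1 := fun x hx => by
      rw [norm_smul_of_nonneg (by positivity), inv_mul_le_iff₀ hMpos, mul_one]; exact hx
    have hk := h₀ (hn a haM) (hn b hbM) (by
      rw [← smul_sub, norm_smul_of_nonneg (by positivity), le_inv_mul_iff₀ hMpos]; linarith)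
    rw [← smul_add, norm_smul_of_nonneg (by positivity), inv_mul_le_iff₀ hMpos] at hk
    have hk' : ‖a + b‖ ≤ (2 - δ) * M := by
      nlinarith [min_le_left δ₀ 1, show δ = min δ₀ 1 from rfl]
    have hge : (2 - δ / 4) * M ≤ ‖a‖ + ‖b‖ := by
      rcases max_cases ‖a‖ ‖b‖ with ⟨e, _⟩ | ⟨e, _⟩ <;>
        nlinarith [abs_le.mp hbal, show M = max ‖a‖ ‖b‖ from rfl]
    have hk'' : ‖a + b‖ ≤ (1 - δ / 4) * (‖a‖ + ‖b‖) := by
      nlinarith [mul_le_mul_of_nonneg_left hge (by linarith : (0 : ℝ) ≤ 1 - δ / 4)]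
    calc ‖a + b‖ ^ 2 ≤ ((1 - δ / 4) * (‖a‖ + ‖b‖)) ^ 2 :=
          pow_le_pow_left₀ (norm_nonneg (a + b)) hk'' 2
      _ = (1 - δ / 4) ^ 2 * (‖a‖ + ‖b‖) ^ 2 := by ring
      _ ≤ (1 - δ ^ 2 / 64) * (2 * S) :=
          mul_le_mul (by nlinarith) (by nlinarith [sq_nonneg (‖a‖ - ‖b‖)]) (sq_nonneg _)
            (by nlinarith)
      _ = 2 * S * (1 - δ ^ 2 / 64) := by ring
  · push Not at hbal
    have : (δ * M / 4) ^ 2 ≤ (‖a‖ - ‖b‖) ^ 2 := by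
      rw [← sq_abs (‖a‖ - ‖b‖)]
      exact pow_le_pow_left₀ (by positivity) hbal.le 2
    nlinarith [pow_le_pow_left₀ (norm_nonneg (a + b)) hsum 2, sq_nonneg δ]

/-- Adding a centred family to one vector gains a uniform factor over the parallelogram bound. -/
theorem exists_avg_bound :
    ∃ ρ : ℝ, 0 < ρ ∧ ρ < 2 ∧ ∀ {ι : Type} [Fintype ι] (u : ι → ℝ) (A : Y) (B : ι → Y),
      (∀ j, 0 ≤ u j) → ∑ j, u j = 1 → ∑ j, u j • B j = 0 →
      ∑ j, u j * ‖A + B j‖ ^ 2 ≤ ρ * (‖A‖ ^ 2 + ∑ j, u j * ‖B j‖ ^ 2) := by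
  obtain ⟨c, hc, hc1, h⟩ := sq_norm_add_le (Y := Y) (η := 1 / 4) (by norm_num)
  refine ⟨2 - c / 10, by linarith, by linarith, ?_⟩
  intro ι _ u A B hu hu1 hB
  set d := ∑ j, u j * ‖A - B j‖ ^ 2
  set S := ‖A‖ ^ 2 + ∑ j, u j * ‖B j‖ ^ 2
  have hsumA : ∑ j, u j * ‖A‖ ^ 2 = ‖A‖ ^ 2 := by rw [← Finset.sum_mul, hu1, one_mul]
  have hA : ‖A‖ ≤ ∑ j, u j * ‖A - B j‖ := by
    calc ‖A‖ = ‖∑ j, u j • (A - B j)‖ := by
          simp only [smul_sub, Finset.sum_sub_distrib, hB, ← Finset.sum_smul, hu1, one_smul,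
            sub_zero]
      _ ≤ ∑ j, ‖u j • (A - B j)‖ := norm_sum_le _ _
      _ = _ := Finset.sum_congr rfl fun j _ => norm_smul_of_nonneg (hu j) _
  have hA2 : ‖A‖ ^ 2 ≤ d := by
    have hCS : (∑ j, u j * ‖A - B j‖) ^ 2 ≤ d := by
      have := (convexOn_pow 2).map_sum_le (t := Finset.univ) (w := u)
        (p := fun j => ‖A - B j‖) (fun j _ => hu j) hu1 (fun j _ => norm_nonneg _)
      simpa [smul_eq_mul, d] using this
    exact (pow_le_pow_left₀ (norm_nonneg A) hA 2).trans hCS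
  have hB2 : ∑ j, u j * ‖B j‖ ^ 2 ≤ 2 * ‖A‖ ^ 2 + 2 * d := by
    calc ∑ j, u j * ‖B j‖ ^ 2 ≤ ∑ j, u j * (2 * ‖A‖ ^ 2 + 2 * ‖A - B j‖ ^ 2) := by
          refine Finset.sum_le_sum fun j _ => mul_le_mul_of_nonneg_left ?_ (hu j)
          have h1 : ‖B j‖ ≤ ‖A‖ + ‖A - B j‖ := by
            simpa using norm_sub_le A (A - B j)
          nlinarith [norm_nonneg (B j), sq_nonneg (‖A‖ - ‖A - B j‖)]
      _ = _ := by
          simp only [mul_add, Finset.sum_add_distrib, mul_left_comm _ (2 : ℝ), ← Finset.mul_sum,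
            hsumA]
          rfl
  have hmain : ∑ j, u j * ‖A + B j‖ ^ 2 + c * d ≤ (2 + c * (1 / 4) ^ 2) * S := by
    have hd : c * d = ∑ j, u j * (c * ‖A - B j‖ ^ 2) := by
      simp only [d, Finset.mul_sum, mul_left_comm c]
    have hS : (2 + c * (1 / 4) ^ 2) * S =
        ∑ j, u j * ((2 + c * (1 / 4) ^ 2) * (‖A‖ ^ 2 + ‖B j‖ ^ 2)) := by
      simp only [mul_left_comm (u _), ← Finset.mul_sum, mul_add, Finset.sum_add_distrib, hsumA, S]
    rw [hd, hS, ← Finset.sum_add_distrib]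
    exact Finset.sum_le_sum fun j _ => by
      rw [← mul_add]; exact mul_le_mul_of_nonneg_left (h A (B j)) (hu j)
  nlinarith [mul_le_mul_of_nonneg_left hA2 hc.le, mul_le_mul_of_nonneg_left hB2 hc.le,
    mul_nonneg hc.le (sq_nonneg ‖A‖)]

omit [NormedSpace ℝ Y] [UniformConvexSpace Y] in
theorem norm_le_of_infDist_le {C : Set Y} (hC : C.Nonempty) {b : ℝ}
    (h : Metric.infDist (0 : Y) C ≤ b) {t : ℝ} (ht : 0 < t) : ∃ x ∈ C, ‖x‖ < b + t := by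
  obtain ⟨x, hx, hd⟩ := (Metric.infDist_lt_iff hC).mp (show Metric.infDist (0 : Y) C < b + t by
    linarith)
  exact ⟨x, hx, by rwa [dist_zero_left] at hd⟩

theorem near_min_close (r : ℝ) (hr : 0 ≤ r) {ε : ℝ} (hε : 0 < ε) :
    ∃ t : ℝ, 0 < t ∧ ∀ C : Set Y, Convex ℝ C → r - t ≤ Metric.infDist (0 : Y) C →
      ∀ a ∈ C, ∀ b ∈ C, ‖a‖ ≤ r + t → ‖b‖ ≤ r + t → ‖a - b‖ ≤ ε := by
  rcases hr.eq_or_lt with rfl | hr
  · refine ⟨ε / 2, by linarith, fun C _ _ a _ b _ ha hb => ?_⟩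
    linarith [norm_sub_le a b]
  obtain ⟨δ, hδ, h⟩ := exists_forall_closed_ball_dist_add_le_two_sub Y
    (show 0 < ε / (2 * r) by positivity)
  refine ⟨min r (r * δ / 8), lt_min hr (by positivity), fun C hC hC0 a ha b hb han hbn => ?_⟩
  set t := min r (r * δ / 8)
  have htr : t ≤ r := min_le_left _ _
  have htd : t ≤ r * δ / 8 := min_le_right _ _
  by_contra hab
  push Not at hab
  set s := r + t
  have ht0 : 0 < t := lt_min hr (by positivity)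
  have hs : 0 < s := by linarith
  have hn : ∀ x : Y, ‖x‖ ≤ s → ‖s⁻¹ • x‖ ≤ 1 := fun x hx => by
    rw [norm_smul_of_nonneg (by positivity), inv_mul_le_iff₀ hs, mul_one]; exact hx
  have hk := h (hn a han) (hn b hbn) (by
    rw [← smul_sub, norm_smul_of_nonneg (by positivity), le_inv_mul_iff₀ hs,
      mul_div_assoc', div_le_iff₀ (by positivity)]
    nlinarith)
  rw [← smul_add, norm_smul_of_nonneg (by positivity), inv_mul_le_iff₀ hs] at hk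
  have hmid : (1 / 2 : ℝ) • a + (1 / 2 : ℝ) • b ∈ C :=
    hC ha hb (by norm_num) (by norm_num) (by norm_num)
  have h1 := hC0.trans (Metric.infDist_le_dist_of_mem (x := (0 : Y)) hmid)
  rw [dist_zero_left, ← smul_add, norm_smul_of_nonneg (by norm_num)] at h1
  nlinarith [mul_pos ht0 hδ, mul_pos hr hδ]

/-- Directed families of nonempty bounded closed convex sets have common points. -/
theorem exists_mem_forall [CompleteSpace Y] (S : Set (Set Y)) (hS : S.Nonempty)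
    (hdir : ∀ A ∈ S, ∀ B ∈ S, ∃ C ∈ S, C ⊆ A ∩ B)
    (hprop : ∀ C ∈ S, C.Nonempty ∧ IsClosed C ∧ Convex ℝ C)
    {R : ℝ} (hR : ∀ C ∈ S, ∀ x ∈ C, ‖x‖ ≤ R) : ∃ x, ∀ C ∈ S, x ∈ C := by
  classical
  set D := (fun C : Set Y => Metric.infDist (0 : Y) C) '' S
  have hbdd : BddAbove D := ⟨R, by
    rintro _ ⟨C, hC, rfl⟩
    obtain ⟨x, hx⟩ := (hprop C hC).1
    exact (Metric.infDist_le_dist_of_mem hx).trans (by rw [dist_zero_left]; exact hR C hC x hx)⟩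
  set r := sSup D
  have hle : ∀ C ∈ S, Metric.infDist (0 : Y) C ≤ r := fun C hC => le_csSup hbdd ⟨C, hC, rfl⟩
  obtain ⟨C₀, hC₀⟩ := hS
  have hr : 0 ≤ r := Metric.infDist_nonneg.trans (hle C₀ hC₀)
  have hex : ∀ n : ℕ, ∃ C ∈ S, r - 1 / (n + 1) ≤ Metric.infDist (0 : Y) C := fun n => by
    obtain ⟨_, ⟨C, hC, rfl⟩, h⟩ := exists_lt_of_lt_csSup (s := D) ⟨_, C₀, hC₀, rfl⟩
      (show r - 1 / (n + 1) < r by
        have : (0 : ℝ) < 1 / (n + 1) := by positivity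
        linarith)
    exact ⟨C, hC, h.le⟩
  choose C hCS hCd using hex
  have hx : ∀ n : ℕ, ∃ x ∈ C n, ‖x‖ ≤ r + 1 / (n + 1) := fun n => by
    obtain ⟨x, hx, hxn⟩ := norm_le_of_infDist_le (hprop _ (hCS n)).1 (hle _ (hCS n))
      (show (0 : ℝ) < 1 / (n + 1) by positivity)
    exact ⟨x, hx, hxn.le⟩
  choose x hxC hxn using hx
  have hclose : ∀ ε > 0, ∃ N : ℕ, ∀ E ∈ S, ∀ n ≥ N,
      ∃ y ∈ E, ‖x n - y‖ ≤ ε ∧ ∀ m ≥ N, ‖x n - x m‖ ≤ 2 * ε := by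
    intro ε hε
    obtain ⟨t, ht, h⟩ := near_min_close (Y := Y) r hr hε
    obtain ⟨N, hN⟩ := exists_nat_one_div_lt ht
    have hN' : ∀ n ≥ N, (1 : ℝ) / (n + 1) ≤ t := fun n hn =>
      (div_le_div_of_nonneg_left zero_le_one (by positivity)
        (by exact_mod_cast Nat.succ_le_succ hn)).trans hN.le
    have hnm : ∀ n ≥ N, ∀ E ∈ S, ∃ y ∈ E, ‖y‖ ≤ r + t ∧ ‖x n - y‖ ≤ ε := by
      intro n hn E hE
      obtain ⟨G, hG, hGsub⟩ := hdir _ (hCS n) E hE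
      obtain ⟨y, hy, hyn⟩ := norm_le_of_infDist_le (hprop G hG).1 (hle G hG) ht
      exact ⟨y, (hGsub hy).2, hyn.le, h (C n) (hprop _ (hCS n)).2.2
        (le_trans (by linarith [hN' n hn]) (hCd n)) _ (hxC n) _ (hGsub hy).1
        ((hxn n).trans (by linarith [hN' n hn])) hyn.le⟩
    refine ⟨N, fun E hE n hn => ?_⟩
    obtain ⟨y, hy, _, hd⟩ := hnm n hn E hE
    refine ⟨y, hy, hd, fun m hm => ?_⟩
    obtain ⟨z, hz, hzn, hzd⟩ := hnm n hn (C m) (hCS m)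
    have hzm := h (C m) (hprop _ (hCS m)).2.2 (le_trans (by linarith [hN' m hm]) (hCd m))
      _ hz _ (hxC m) hzn ((hxn m).trans (by linarith [hN' m hm]))
    linarith [norm_sub_le_norm_sub_add_norm_sub (x n) z (x m)]
  have hcau : CauchySeq x := Metric.cauchySeq_iff.mpr fun ε hε => by
    obtain ⟨N, hN⟩ := hclose (ε / 3) (by linarith)
    refine ⟨N, fun m hm n hn => ?_⟩
    obtain ⟨y, -, -, h⟩ := hN C₀ hC₀ m hm
    rw [dist_eq_norm]
    linarith [h n hn]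
  obtain ⟨l, hl⟩ := cauchySeq_tendsto_of_complete hcau
  refine ⟨l, fun E hE => (hprop E hE).2.1.closure_subset (Metric.mem_closure_iff.mpr fun ε hε => ?_)⟩
  obtain ⟨N, hN⟩ := hclose (ε / 3) (by linarith)
  obtain ⟨M, hM⟩ := Metric.tendsto_atTop.mp hl (ε / 3) (by linarith)
  obtain ⟨y, hy, hd, -⟩ := hN E hE (max N M) (le_max_left _ _)
  refine ⟨y, hy, ?_⟩
  have := hM (max N M) (le_max_right _ _)
  rw [dist_eq_norm] at this ⊢
  linarith [norm_sub_le_norm_sub_add_norm_sub l (x (max N M)) y, norm_sub_rev l (x (max N M))]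

end Vale.Agent.P079
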