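import Vale.Agent.P079.Weak

/-!
P079: minimal invariant sets of nonexpansive maps.
-/

open scoped BigOperators

namespace Vale.Agent.P079

variable {X : Type*} [NormedAddCommGroup X] [NormedSpace ℝ X]

/-- A nonempty bounded closed convex set mapped into itself without increasing distances, minimal
with these properties. -/
structure Minimal (T : X → X) (K : Set X) : Prop where
  nonempty : K.Nonempty
  closed : IsClosed K
  bounded : Bornology.IsBounded K
  convex : Convex ℝ K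
  maps : Set.MapsTo T K K
  lip : ∀ a ∈ K, ∀ b ∈ K, ‖T a - T b‖ ≤ ‖a - b‖
  minimal : ∀ L ⊆ K, L.Nonempty → IsClosed L → Convex ℝ L → Set.MapsTo T L L → L = K

/-- The points moved by at most `t`. -/
def almostFixed (T : X → X) (K : Set X) (t : ℝ) : Set X := {w | w ∈ K ∧ ‖T w - w‖ ≤ t}

omit [NormedSpace ℝ X] in
theorem almostFixed_mono {T : X → X} {K : Set X} {s t : ℝ} (h : s ≤ t) :
    almostFixed T K s ⊆ almostFixed T K t := fun _ hw => ⟨hw.1, hw.2.trans h⟩

/-- Minimal invariant sets exist inside every invariant one. -/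
theorem exists_minimal {C : Set X} (hI : HasInter C) (hne : C.Nonempty)
    (hcl : IsClosed C) (hbd : Bornology.IsBounded C) (hcv : Convex ℝ C) {T : X → X}
    (hT : Set.MapsTo T C C) (hlip : ∀ a ∈ C, ∀ b ∈ C, ‖T a - T b‖ ≤ ‖a - b‖) :
    ∃ K ⊆ C, Minimal T K := by
  set F : Set (Set X) := {L | L ⊆ C ∧ L.Nonempty ∧ IsClosed L ∧ Convex ℝ L ∧ Set.MapsTo T L L}
  obtain ⟨K, hKC, hmin⟩ := zorn_superset_nonempty F (fun c hc hchain hcne => by
    refine ⟨⋂₀ c, ⟨?_, ?_, isClosed_sInter fun L hL => (hc hL).2.2.1,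
      convex_sInter fun L hL => (hc hL).2.2.2.1,
      fun x hx L hL => (hc hL).2.2.2.2 (hx L hL)⟩, fun L hL => Set.sInter_subset_of_mem hL⟩
    · exact (Set.sInter_subset_of_mem hcne.choose_spec).trans (hc hcne.choose_spec).1
    · obtain ⟨x, hx⟩ := hI c hcne
        (fun A hA B hB => by
          rcases hchain.total hA hB with h | h
          exacts [⟨A, hA, Set.subset_inter subset_rfl h⟩, ⟨B, hB, Set.subset_inter h subset_rfl⟩])
        (fun L hL => ⟨(hc hL).2.1, (hc hL).2.2.1, (hc hL).2.2.2.1⟩) (fun L hL => (hc hL).1)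
      exact ⟨x, hx⟩) C ⟨subset_rfl, hne, hcl, hcv, hT⟩
  obtain ⟨hKC', h1, h2, h3, h4⟩ := hmin.prop
  exact ⟨K, hKC, h1, h2, hbd.subset hKC, h3, h4,
    fun a ha b hb => hlip a (hKC ha) b (hKC hb),
    fun L hL hLne hLcl hLcv hLT =>
      hmin.eq_of_ge ⟨hL.trans hKC, hLne, hLcl, hLcv, hLT⟩ hL |>.symm⟩

namespace Minimal

variable {T : X → X} {K : Set X}

theorem norm_sub_le_diam (hK : Minimal T K) {a b : X} (ha : a ∈ K) (hb : b ∈ K) :
    ‖a - b‖ ≤ Metric.diam K := by
  rw [← dist_eq_norm]; exact Metric.dist_le_diam_of_mem hK.bounded ha hb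

theorem subset_closure_convexHull (hK : Minimal T K) :
    K ⊆ closure (convexHull ℝ (T '' K)) := by
  have hsub : closure (convexHull ℝ (T '' K)) ⊆ K :=
    closure_minimal (convexHull_min (Set.image_subset_iff.mpr hK.maps) hK.convex) hK.closed
  refine (hK.minimal _ hsub (((hK.nonempty.image T).convexHull).mono subset_closure) isClosed_closure
    (convex_convexHull ℝ _).closure fun x hx => ?_).ge
  exact subset_closure (subset_convexHull ℝ _ ⟨x, hsub hx, rfl⟩)

/-- No point of a minimal set sees the whole set within less than its diameter. -/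
theorem diam_le_radius (hK : Minimal T K) {u₀ : X} (hu₀ : u₀ ∈ K) {r : ℝ}
    (h : ∀ u ∈ K, ‖u₀ - u‖ ≤ r) : Metric.diam K ≤ r := by
  set S : Set X := K ∩ ⋂ u ∈ K, Metric.closedBall u r
  have hmem : ∀ v, v ∈ S ↔ v ∈ K ∧ ∀ u ∈ K, ‖v - u‖ ≤ r := fun v => by
    simp [S, dist_eq_norm]
  have hS : S = K := hK.minimal S Set.inter_subset_left ⟨u₀, (hmem _).2 ⟨hu₀, h⟩⟩
    (hK.closed.inter (isClosed_biInter fun u _ => Metric.isClosed_closedBall))
    (hK.convex.inter (convex_iInter₂ fun u _ => convex_closedBall u r))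
    (fun v hv => (hmem _).2 ⟨hK.maps ((hmem v).1 hv).1, fun u hu => by
      have hsub : K ⊆ Metric.closedBall (T v) r := hK.subset_closure_convexHull.trans
        (closure_minimal (convexHull_min (by
          rintro _ ⟨w, hw, rfl⟩
          rw [Metric.mem_closedBall, dist_eq_norm, norm_sub_rev]
          exact (hK.lip v ((hmem v).1 hv).1 w hw).trans (((hmem v).1 hv).2 w hw))
          (convex_closedBall _ _)) Metric.isClosed_closedBall)
      have := hsub hu
      rwa [Metric.mem_closedBall, dist_eq_norm, norm_sub_rev] at this⟩)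
  refine Metric.diam_le_of_forall_dist_le ((norm_nonneg _).trans (h u₀ hu₀)) fun a ha b hb => ?_
  rw [dist_eq_norm]
  exact ((hmem a).1 (hS.symm ▸ ha)).2 b hb

/-- The segment step: an almost fixed point at a prescribed place between two more accurate ones. -/
theorem exists_step [CompleteSpace X] (hK : Minimal T K) {q y : X} {δ σ θ : ℝ}
    (hq : q ∈ almostFixed T K δ) (hy : y ∈ almostFixed T K δ)
    (hσ0 : 0 ≤ σ) (hσ1 : σ ≤ 1) (hθ0 : 0 < θ) (hθ1 : θ ≤ 1) :
    ∃ v ∈ almostFixed T K (θ * Metric.diam K),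
      ‖v - q‖ ≤ σ * ‖y - q‖ + δ / θ ∧ ‖v - y‖ ≤ (1 - σ) * ‖y - q‖ + δ / θ := by
  set w₀ := (1 - σ) • q + σ • y with hw₀
  have hw₀K : w₀ ∈ K := hK.convex hq.1 hy.1 (by linarith) hσ0 (by ring)
  set g : X → X := fun u => θ • w₀ + (1 - θ) • T u
  have hg : Set.MapsTo g K K := fun u hu =>
    hK.convex hw₀K (hK.maps hu) hθ0.le (by linarith) (by ring)
  have hcon : ContractingWith (1 - θ).toNNReal hg.restrict := by
    refine ⟨by rw [← NNReal.coe_lt_coe, Real.coe_toNNReal _ (by linarith), NNReal.coe_one]; linarith,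
      LipschitzWith.of_dist_le_mul fun a b => ?_⟩
    rw [Subtype.dist_eq, Subtype.dist_eq, dist_eq_norm, dist_eq_norm,
      Real.coe_toNNReal _ (by linarith)]
    simp only [Set.MapsTo.val_restrict_apply, g, add_sub_add_left_eq_sub, ← smul_sub,
      norm_smul_of_nonneg (show 0 ≤ 1 - θ by linarith)]
    exact mul_le_mul_of_nonneg_left (hK.lip _ a.2 _ b.2) (by linarith)
  obtain ⟨v, hvK, hv, -, -⟩ := hcon.exists_fixedPoint' hK.closed.isComplete hg hw₀K (edist_ne_top _ _)
  have hv' : θ • w₀ + (1 - θ) • T v = v := hv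
  have hTv := hK.maps hvK
  have hanchor : ∀ a ∈ almostFixed T K δ, ‖v - a‖ ≤ ‖w₀ - a‖ + δ / θ := by
    intro a ha
    have e : v - a = θ • (w₀ - a) + (1 - θ) • ((T v - T a) + (T a - a)) := by
      nth_rw 1 [← hv']; module
    have h := norm_add_le (θ • (w₀ - a)) ((1 - θ) • ((T v - T a) + (T a - a)))
    rw [← e, norm_smul_of_nonneg hθ0.le, norm_smul_of_nonneg (show 0 ≤ 1 - θ by linarith)] at h
    have h2 : ‖(T v - T a) + (T a - a)‖ ≤ ‖v - a‖ + δ :=
      (norm_add_le _ _).trans (add_le_add (hK.lip v hvK a ha.1) ha.2)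
    have h3 := mul_le_mul_of_nonneg_left h2 (show 0 ≤ 1 - θ by linarith)
    have hd : θ * (δ / θ) = δ := by field_simp
    have hδ0 : 0 ≤ δ := (norm_nonneg _).trans ha.2
    nlinarith [mul_nonneg hθ0.le hδ0]
  refine ⟨v, ⟨hvK, ?_⟩, ?_, ?_⟩
  · have e : T v - v = θ • (T v - w₀) := by nth_rw 2 [← hv']; module
    rw [e, norm_smul_of_nonneg hθ0.le]
    exact mul_le_mul_of_nonneg_left (hK.norm_sub_le_diam hTv hw₀K) hθ0.le
  · refine (hanchor q hq).trans (le_of_eq ?_)
    rw [show w₀ - q = σ • (y - q) by rw [hw₀]; module, norm_smul_of_nonneg hσ0]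
  · refine (hanchor y hy).trans (le_of_eq ?_)
    rw [show w₀ - y = (1 - σ) • (q - y) by rw [hw₀]; module,
      norm_smul_of_nonneg (show 0 ≤ 1 - σ by linarith), norm_sub_rev q y]

theorem almostFixed_nonempty [CompleteSpace X] (hK : Minimal T K) {t : ℝ} (ht : 0 < t) :
    (almostFixed T K t).Nonempty := by
  obtain ⟨w, hw⟩ := hK.nonempty
  set D := Metric.diam K
  have hD : 0 ≤ D := Metric.diam_nonneg
  have hwa : w ∈ almostFixed T K D := ⟨hw, hK.norm_sub_le_diam (hK.maps hw) hw⟩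
  obtain ⟨v, hv, -⟩ := hK.exists_step (σ := 0) (θ := min 1 (t / (D + 1))) hwa hwa le_rfl
    zero_le_one (lt_min one_pos (by positivity)) (min_le_left _ _)
  refine ⟨v, almostFixed_mono ((mul_le_mul_of_nonneg_right (min_le_right _ _) hD).trans ?_) hv⟩
  rw [div_mul_eq_mul_div, div_le_iff₀ (by linarith)]
  nlinarith

/-- A weak cluster point of the almost fixed points of every accuracy. -/
theorem exists_centre [CompleteSpace X] (hK : Minimal T K) (hC : HasClusters K) :
    ∃ z ∈ K, ∀ t > 0, ∀ (F : Finset (X →L[ℝ] ℝ)) (ε : ℝ), 0 < ε →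
      ∃ w ∈ almostFixed T K t, ∀ Φ ∈ F, |Φ w - Φ z| < ε := by
  set 𝓕 : Filter X := ⨅ t : Set.Ioi (0 : ℝ), Filter.principal (almostFixed T K t)
  haveI : Nonempty (Set.Ioi (0 : ℝ)) := ⟨⟨1, Set.mem_Ioi.mpr one_pos⟩⟩
  have hne : 𝓕.NeBot := Filter.iInf_neBot_of_directed'
    (fun s t => ⟨⟨min s.1 t.1, Set.mem_Ioi.mpr (lt_min (Set.mem_Ioi.mp s.2) (Set.mem_Ioi.mp t.2))⟩,
      Filter.principal_mono.mpr (almostFixed_mono (min_le_left _ _)),
      Filter.principal_mono.mpr (almostFixed_mono (min_le_right _ _))⟩)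
    fun t => Filter.principal_neBot_iff.mpr (hK.almostFixed_nonempty t.2)
  have hmem : ∀ t > 0, almostFixed T K t ∈ 𝓕 := fun t ht =>
    Filter.mem_iInf_of_mem (⟨t, Set.mem_Ioi.mpr ht⟩ : Set.Ioi (0 : ℝ))
      (Filter.mem_principal_self _)
  obtain ⟨z, hz, h⟩ := hC 𝓕 hne (Filter.mem_of_superset (hmem 1 one_pos) fun w hw => hw.1)
  refine ⟨z, hz, fun t ht F ε hε => ?_⟩
  obtain ⟨w, hw, hwA⟩ := ((h F ε hε).and_eventually (hmem t ht)).exists
  exact ⟨w, hwA, hw⟩

/-- Goebel-Karlovitz: almost fixed points are far from every point of a minimal set. -/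
theorem exists_far (hK : Minimal T K) (hI : HasInter K) {z : X} (hz : z ∈ K)
    {ε : ℝ} (hε : 0 < ε) :
    ∃ δ > 0, ∀ w ∈ almostFixed T K δ, Metric.diam K - ε ≤ ‖w - z‖ := by
  by_contra hcon
  push Not at hcon
  set r := Metric.diam K - ε
  set B : ℝ → Set X := fun t => {w | w ∈ almostFixed T K t ∧ ‖w - z‖ ≤ r}
  have hB : ∀ t > 0, (B t).Nonempty := fun t ht => by
    obtain ⟨w, hw, hwz⟩ := hcon t ht
    exact ⟨w, hw, hwz.le⟩
  have hBmono : ∀ {s t}, s ≤ t → B s ⊆ B t := fun h w hw => ⟨almostFixed_mono h hw.1, hw.2⟩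
  set U : Set X := {u | u ∈ K ∧ ∀ τ > 0, ∃ t > 0, ∀ w ∈ B t, ‖w - u‖ ≤ r + τ}
  have hU : U = K := hK.minimal U (fun u hu => hu.1)
    ⟨z, hz, fun τ hτ => ⟨1, one_pos, fun w hw => by linarith [hw.2]⟩⟩
    (by
      rw [← closure_subset_iff_isClosed]
      intro u hu
      refine ⟨closure_minimal (fun v hv => hv.1) hK.closed hu, fun τ hτ => ?_⟩
      obtain ⟨v, hv, huv⟩ := Metric.mem_closure_iff.mp hu (τ / 2) (by linarith)
      obtain ⟨t, ht, h⟩ := hv.2 (τ / 2) (by linarith)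
      refine ⟨t, ht, fun w hw => ?_⟩
      rw [dist_eq_norm] at huv
      linarith [h w hw, norm_sub_le_norm_sub_add_norm_sub w v u, norm_sub_rev u v])
    (by
      intro a ha b hb p q hp hq hpq
      refine ⟨hK.convex ha.1 hb.1 hp hq hpq, fun τ hτ => ?_⟩
      obtain ⟨s, hs, h1⟩ := ha.2 τ hτ
      obtain ⟨t, ht, h2⟩ := hb.2 τ hτ
      refine ⟨min s t, lt_min hs ht, fun w hw => ?_⟩
      have := (convex_closedBall w (r + τ))
        (show a ∈ Metric.closedBall w (r + τ) by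
          rw [Metric.mem_closedBall, dist_eq_norm, norm_sub_rev]
          exact h1 w (hBmono (min_le_left _ _) hw))
        (show b ∈ Metric.closedBall w (r + τ) by
          rw [Metric.mem_closedBall, dist_eq_norm, norm_sub_rev]
          exact h2 w (hBmono (min_le_right _ _) hw)) hp hq hpq
      rwa [Metric.mem_closedBall, dist_eq_norm, norm_sub_rev] at this)
    (by
      intro u hu
      refine ⟨hK.maps hu.1, fun τ hτ => ?_⟩
      obtain ⟨t, ht, h⟩ := hu.2 (τ / 2) (by linarith)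
      refine ⟨min t (τ / 2), lt_min ht (by linarith), fun w hw => ?_⟩
      have h1 := h w (hBmono (min_le_left _ _) hw)
      have h2 : ‖T w - w‖ ≤ τ / 2 := hw.1.2.trans (min_le_right _ _)
      linarith [hK.lip w hw.1.1 u hu.1, norm_sub_le_norm_sub_add_norm_sub w (T w) (T u),
        norm_sub_rev w (T w)])
  have hsub : ∀ t, closure (convexHull ℝ (B t)) ⊆ K := fun t =>
    closure_minimal (convexHull_min (fun w hw => hw.1.1) hK.convex) hK.closed
  obtain ⟨u₀, hu₀⟩ := hI
    ((fun t => closure (convexHull ℝ (B t))) '' Set.Ioi (0 : ℝ))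
    ⟨_, ⟨1, Set.mem_Ioi.mpr one_pos, rfl⟩⟩
    (by
      rintro _ ⟨s, hs, rfl⟩ _ ⟨t, ht, rfl⟩
      exact ⟨_, ⟨min s t, lt_min (Set.mem_Ioi.mp hs) (Set.mem_Ioi.mp ht), rfl⟩,
        Set.subset_inter (closure_mono (convexHull_mono (hBmono (min_le_left _ _))))
          (closure_mono (convexHull_mono (hBmono (min_le_right _ _))))⟩)
    (by
      rintro _ ⟨t, ht, rfl⟩
      exact ⟨((hB t ht).convexHull).mono subset_closure, isClosed_closure,
        (convex_convexHull ℝ _).closure⟩)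
    (by rintro _ ⟨t, _, rfl⟩; exact hsub t)
  have hu₀' : ∀ t > 0, u₀ ∈ closure (convexHull ℝ (B t)) := fun t ht => hu₀ _ ⟨t, ht, rfl⟩
  have hrad : ∀ u ∈ K, ‖u₀ - u‖ ≤ r := fun u hu => le_of_forall_pos_le_add fun τ hτ => by
    obtain ⟨t, ht, h⟩ := (hU.symm ▸ hu : u ∈ U).2 τ hτ
    have := closure_minimal (convexHull_min
      (fun w hw => by rw [Metric.mem_closedBall, dist_eq_norm]; exact h w hw)
      (convex_closedBall u (r + τ))) Metric.isClosed_closedBall (hu₀' t ht)
    rwa [Metric.mem_closedBall, dist_eq_norm] at this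
  linarith [hK.diam_le_radius (hsub 1 (hu₀' 1 one_pos)) hrad]

end Minimal

end Vale.Agent.P079
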