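import Vale.Agent.P079.Convexity

/-!
P079: weak cluster points in convex sets, from weak compactness, from reflexivity and from uniform
convexity, and the intersection property they give.
-/

open Filter Topology

namespace Vale.Agent.P079

variable {X : Type*} [NormedAddCommGroup X] [NormedSpace ℝ X]

/-- Every filter on `C` has a weak cluster point in `C`. -/
def HasClusters (C : Set X) : Prop :=
  ∀ 𝓕 : Filter X, 𝓕.NeBot → C ∈ 𝓕 →
    ∃ m ∈ C, ∀ (F : Finset (X →L[ℝ] ℝ)) (ε : ℝ), 0 < ε → ∃ᶠ x in 𝓕, ∀ Φ ∈ F, |Φ x - Φ m| < ε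

/-- Directed families of nonempty closed convex subsets of `C` have common points. -/
def HasInter (C : Set X) : Prop :=
  ∀ S : Set (Set X), S.Nonempty → (∀ A ∈ S, ∀ B ∈ S, ∃ E ∈ S, E ⊆ A ∩ B) →
    (∀ A ∈ S, A.Nonempty ∧ IsClosed A ∧ Convex ℝ A) → (∀ A ∈ S, A ⊆ C) → ∃ x, ∀ A ∈ S, x ∈ A

theorem HasInter.mono {C K : Set X} (h : HasInter C) (hK : K ⊆ C) : HasInter K :=
  fun S h1 h2 h3 h4 => h S h1 h2 h3 fun A hA => (h4 A hA).trans hK

theorem mem_of_frequently {A : Set X} (hA : Convex ℝ A) (hAc : IsClosed A) {𝓕 : Filter X}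
    (hmem : A ∈ 𝓕) {m : X}
    (h : ∀ (F : Finset (X →L[ℝ] ℝ)) (ε : ℝ), 0 < ε → ∃ᶠ x in 𝓕, ∀ Φ ∈ F, |Φ x - Φ m| < ε) :
    m ∈ A := by
  by_contra hm
  obtain ⟨l, u, hlA, hlm⟩ := geometric_hahn_banach_closed_point hA hAc hm
  obtain ⟨x, hx, hxA⟩ := ((h {l} (l m - u) (by linarith)).and_eventually hmem).exists
  linarith [hlA x hxA, abs_lt.mp (hx l (Finset.mem_singleton_self l))]

theorem HasClusters.hasInter {C : Set X} (hC : HasClusters C) : HasInter C := by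
  intro S hS hdir hprop hsub
  haveI : Nonempty S := hS.to_subtype
  have hne : (⨅ A : S, 𝓟 (A : Set X)).NeBot := iInf_neBot_of_directed'
    (fun A B => by
      obtain ⟨E, hE, hEs⟩ := hdir A A.2 B B.2
      exact ⟨⟨E, hE⟩, principal_mono.mpr (hEs.trans Set.inter_subset_left),
        principal_mono.mpr (hEs.trans Set.inter_subset_right)⟩)
    fun A => principal_neBot_iff.mpr (hprop A A.2).1
  have hmem : ∀ A (hA : A ∈ S), A ∈ ⨅ B : S, 𝓟 (B : Set X) := fun A hA =>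
    mem_iInf_of_mem ⟨A, hA⟩ (mem_principal_self A)
  obtain ⟨A₀, hA₀⟩ := hS
  obtain ⟨m, -, h⟩ := hC _ hne (mem_of_superset (hmem A₀ hA₀) (hsub A₀ hA₀))
  exact ⟨m, fun A hA => mem_of_frequently (hprop A hA).2.2 (hprop A hA).2.1 (hmem A hA) h⟩

theorem HasClusters.subset {C K : Set X} (hC : HasClusters C) (hK : K ⊆ C) (hKc : IsClosed K)
    (hKv : Convex ℝ K) : HasClusters K := fun 𝓕 hne hmem => by
  obtain ⟨m, -, h⟩ := hC 𝓕 hne (mem_of_superset hmem hK)
  exact ⟨m, mem_of_frequently hKv hKc hmem h, h⟩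

theorem hasClusters_of_isCompact {C : Set X} (hC : IsCompact (toWeakSpace ℝ X '' C)) :
    HasClusters C := by
  intro 𝓕 hne hmem
  obtain ⟨w, ⟨m, hm, rfl⟩, hw⟩ := hC.exists_clusterPt (f := Filter.map (toWeakSpace ℝ X) 𝓕)
    (le_principal_iff.mpr (image_mem_map hmem))
  refine ⟨m, hm, fun F ε hε => ?_⟩
  have hev : ∀ Φ ∈ F, ∀ᶠ u in 𝓝 (toWeakSpace ℝ X m),
      |Φ ((toWeakSpace ℝ X).symm u) - Φ m| < ε := fun Φ _ => by
    have hc : Continuous fun u : WeakSpace ℝ X => Φ ((toWeakSpace ℝ X).symm u) :=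
      WeakBilin.eval_continuous (topDualPairing ℝ X).flip Φ
    exact (((hc.sub continuous_const).abs).tendsto _).eventually_lt_const (by simpa using hε)
  exact (frequently_map.mp (mapClusterPt_iff_frequently.mp hw _
    ((eventually_all_finset F).mpr hev))).mono fun x hx Φ hΦ => by simpa using hx Φ hΦ

theorem exists_limit {C : Set X} {R : ℝ} (hR : ∀ x ∈ C, ‖x‖ ≤ R) (U : Ultrafilter X) (hU : C ∈ U)
    (Φ : X →L[ℝ] ℝ) : ∃ l ∈ Set.Icc (-(‖Φ‖ * R)) (‖Φ‖ * R), Tendsto Φ U (𝓝 l) := by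
  obtain ⟨l, hl, hlim⟩ := (isCompact_Icc (a := -(‖Φ‖ * R)) (b := ‖Φ‖ * R)).ultrafilter_le_nhds
    (U.map Φ) (le_principal_iff.mpr (mem_map.mpr (mem_of_superset hU fun x hx =>
      abs_le.mp ((Φ.le_opNorm x).trans (mul_le_mul_of_nonneg_left (hR x hx) (norm_nonneg _))))))
  exact ⟨l, hl, hlim⟩

theorem hasClusters_of_limits {C : Set X}
    (h : ∀ U : Ultrafilter X, C ∈ U → ∃ m ∈ C, ∀ Φ : X →L[ℝ] ℝ, Tendsto Φ U (𝓝 (Φ m))) :
    HasClusters C := by
  intro 𝓕 hne hmem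
  obtain ⟨m, hm, hlim⟩ := h (Ultrafilter.of 𝓕) (Ultrafilter.of_le 𝓕 hmem)
  refine ⟨m, hm, fun F ε hε => Frequently.filter_mono (Eventually.frequently ?_)
    (Ultrafilter.of_le 𝓕)⟩
  refine (eventually_all_finset F).mpr fun Φ _ => ?_
  exact (((hlim Φ).sub_const (Φ m)).abs).eventually_lt_const (by simpa using hε)

theorem hasClusters_of_reflexive {C : Set X}
    (hX : Function.Surjective (NormedSpace.inclusionInDoubleDual ℝ X))
    (hcl : IsClosed C) (hbd : Bornology.IsBounded C) (hcv : Convex ℝ C) : HasClusters C := by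
  obtain ⟨R, hR⟩ := hbd.exists_norm_le
  refine hasClusters_of_limits fun U hU => ?_
  choose l hlmem hl using exists_limit hR U hU
  let L : StrongDual ℝ X →ₗ[ℝ] ℝ :=
    { toFun := l
      map_add' := fun Φ Ψ => tendsto_nhds_unique (hl (Φ + Ψ))
        ((hl Φ).add (hl Ψ))
      map_smul' := fun c Φ => tendsto_nhds_unique (hl (c • Φ))
        ((hl Φ).const_mul c) }
  obtain ⟨m, hm⟩ := hX (L.mkContinuous R fun Φ => by
    have := abs_le.mpr (hlmem Φ)
    rw [mul_comm] at this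
    exact this)
  have hev : ∀ Φ : X →L[ℝ] ℝ, Φ m = l Φ := fun Φ => by
    rw [← NormedSpace.dual_def ℝ X m Φ, hm]; rfl
  refine ⟨m, ?_, fun Φ => (hev Φ) ▸ hl Φ⟩
  exact mem_of_frequently hcv hcl (𝓕 := (U : Filter X)) hU fun F ε hε => Eventually.frequently
    ((eventually_all_finset F).mpr fun Φ _ =>
      (((hev Φ) ▸ hl Φ : Tendsto Φ U (𝓝 (Φ m))).sub_const (Φ m)).abs.eventually_lt_const
        (by simpa using hε))

theorem HasClusters.isClosed {C : Set X} (hC : HasClusters C) : IsClosed C := by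
  refine isClosed_of_closure_subset fun x hx => ?_
  haveI : (𝓝[C] x).NeBot := mem_closure_iff_nhdsWithin_neBot.mp hx
  obtain ⟨m, hm, h⟩ := hC (𝓝[C] x) inferInstance self_mem_nhdsWithin
  suffices m = x by rwa [← this]
  refine (SeparatingDual.eq_iff_forall_dual_eq (R := ℝ)).mpr fun Φ => eq_of_forall_dist_le fun ε hε => ?_
  obtain ⟨y, hy, hyx⟩ := ((h {Φ} (ε / 2) (by linarith)).and_eventually
    ((Φ.continuous.tendsto x).mono_left nhdsWithin_le_nhds |>.eventually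
      (Metric.ball_mem_nhds (Φ x) (show (0 : ℝ) < ε / 2 by linarith)))).exists
  rw [Real.dist_eq, abs_lt] at hyx
  rw [Real.dist_eq, abs_le]
  have := abs_lt.mp (hy Φ (Finset.mem_singleton_self Φ))
  constructor <;> linarith

theorem isBounded_of_isCompact [CompleteSpace X] {C : Set X}
    (hC : IsCompact (toWeakSpace ℝ X '' C)) : Bornology.IsBounded C := by
  obtain ⟨R, hR⟩ := banach_steinhaus (g := fun x : C => NormedSpace.inclusionInDoubleDual ℝ X x)
    fun Φ => by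
      have hc : Continuous fun u : WeakSpace ℝ X => Φ ((toWeakSpace ℝ X).symm u) :=
        WeakBilin.eval_continuous (topDualPairing ℝ X).flip Φ
      obtain ⟨B, hB⟩ := (hC.image hc).isBounded.exists_norm_le
      exact ⟨B, fun x => hB _ ⟨_, ⟨x.1, x.2, rfl⟩, rfl⟩⟩
  refine isBounded_iff_forall_norm_le.mpr ⟨R, fun x hx => ?_⟩
  exact ((NormedSpace.inclusionInDoubleDualLi ℝ).norm_map x).ge.trans (hR ⟨x, hx⟩)

theorem hasInter_of_uniformConvex {Y : Type*} [NormedAddCommGroup Y] [NormedSpace ℝ Y]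
    [UniformConvexSpace Y] [CompleteSpace X] (e : X ≃L[ℝ] Y) {C : Set X}
    (hbd : Bornology.IsBounded C) : HasInter C := by
  intro S hS hdir hprop hsub
  have : CompleteSpace Y :=
    (completeSpace_congr (e := e.toLinearEquiv.toEquiv) e.isUniformEmbedding).mp inferInstance
  obtain ⟨R, hR⟩ := hbd.exists_norm_le
  obtain ⟨y, hy⟩ := exists_mem_forall ((fun A : Set X => (e : X → Y) '' A) '' S) (hS.image _)
    (by
      rintro _ ⟨A, hA, rfl⟩ _ ⟨B, hB, rfl⟩
      obtain ⟨E, hE, hEs⟩ := hdir A hA B hB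
      exact ⟨_, ⟨E, hE, rfl⟩, fun _ ⟨x, hx, hxe⟩ =>
        hxe ▸ ⟨⟨x, (hEs hx).1, rfl⟩, ⟨x, (hEs hx).2, rfl⟩⟩⟩)
    (by
      rintro _ ⟨A, hA, rfl⟩
      exact ⟨(hprop A hA).1.image _, e.toHomeomorph.isClosedMap A (hprop A hA).2.1,
        (hprop A hA).2.2.linear_image e.toLinearEquiv.toLinearMap⟩)
    (R := ‖(e : X →L[ℝ] Y)‖ * R)
    (by
      rintro _ ⟨A, hA, rfl⟩ _ ⟨x, hx, rfl⟩
      exact ((e : X →L[ℝ] Y).le_opNorm x).trans
        (mul_le_mul_of_nonneg_left (hR x (hsub A hA hx)) (norm_nonneg _)))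
  refine ⟨e.symm y, fun A hA => ?_⟩
  obtain ⟨x, hx, hxe⟩ := hy _ ⟨A, hA, rfl⟩
  rwa [← hxe, ContinuousLinearEquiv.symm_apply_apply]

theorem hasClusters_of_hasInter {C : Set X} (hI : HasInter C) (hcl : IsClosed C)
    (hbd : Bornology.IsBounded C) (hcv : Convex ℝ C) : HasClusters C := by
  obtain ⟨R, hR⟩ := hbd.exists_norm_le
  refine hasClusters_of_limits fun U hU => ?_
  have hsub : ∀ A : Set X, A ⊆ C → closure (convexHull ℝ A) ⊆ C := fun A hA =>
    closure_minimal (convexHull_min hA hcv) hcl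
  obtain ⟨m, hm⟩ := hI ((fun A => closure (convexHull ℝ A)) '' {A : Set X | A ∈ U ∧ A ⊆ C})
    ⟨_, C, ⟨hU, subset_rfl⟩, rfl⟩
    (by
      rintro _ ⟨A, hA, rfl⟩ _ ⟨B, hB, rfl⟩
      exact ⟨_, ⟨A ∩ B, ⟨inter_mem hA.1 hB.1, Set.inter_subset_left.trans hA.2⟩, rfl⟩,
        Set.subset_inter (closure_mono (convexHull_mono Set.inter_subset_left))
          (closure_mono (convexHull_mono Set.inter_subset_right))⟩)
    (by
      rintro _ ⟨A, hA, rfl⟩
      exact ⟨((Ultrafilter.nonempty_of_mem hA.1).convexHull).mono subset_closure, isClosed_closure,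
        (convex_convexHull ℝ _).closure⟩)
    (by rintro _ ⟨A, hA, rfl⟩; exact hsub A hA.2)
  refine ⟨m, hsub C subset_rfl (hm _ ⟨C, ⟨hU, subset_rfl⟩, rfl⟩), fun Φ => ?_⟩
  obtain ⟨l, -, hl⟩ := exists_limit hR U hU Φ
  suffices Φ m = l by rwa [this]
  refine eq_of_forall_dist_le fun ε hε => ?_
  have hA : Φ ⁻¹' Metric.closedBall l ε ∩ C ∈ U :=
    inter_mem (hl (Metric.closedBall_mem_nhds l hε)) hU
  exact closure_minimal (convexHull_min Set.inter_subset_left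
    ((convex_closedBall l ε).linear_preimage (Φ : X →ₗ[ℝ] ℝ)))
    (Metric.isClosed_closedBall.preimage Φ.continuous) (hm _ ⟨_, ⟨hA, Set.inter_subset_right⟩, rfl⟩)

end Vale.Agent.P079
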