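import Vale.Agent.P079.Minimal

/-!
P079: weakly null trees. A fixed point free nonexpansive map on a weakly compact convex set forces
weakly null trees of every finite height whose branch sums grow linearly. Spaces isomorphic to
asymptotically uniformly smooth or to uniformly convex ones have no such trees.
-/

open scoped BigOperators
open Filter Topology

namespace Vale.Agent.P079

variable {X : Type*} [NormedAddCommGroup X] [NormedSpace ℝ X]

/-- `0` is in the weak closure of `S`. -/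
def WeaklyNull (S : Set X) : Prop :=
  ∀ (F : Finset (X →L[ℝ] ℝ)) (ε : ℝ), 0 < ε → ∃ x ∈ S, ∀ Φ ∈ F, |Φ x| < ε

/-- There is a tree of height `k` of vectors of norm at most one, the children of each node having
`0` in their weak closure, with `r ≤ ‖v + sum‖` along every branch. -/
def HasTree (r : ℝ) : ℕ → X → Prop
  | 0, v => r ≤ ‖v‖
  | k + 1, v => WeaklyNull {x | ‖x‖ ≤ 1 ∧ HasTree r k (v + x)}

/-- The branch sums of weakly null trees cannot all grow linearly in the height. -/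
def TreeProperty (X : Type*) [NormedAddCommGroup X] [NormedSpace ℝ X] : Prop :=
  ∀ c : ℝ, 0 < c → ∃ k : ℕ, ¬ HasTree (c * k) k (0 : X)

/-- Asymptotic uniform smoothness: `ρ̄(t)/t → 0`, where `ρ̄` is the modulus defined with subspaces
of finite codimension, given as common kernels of finitely many functionals. -/
def AsympSmooth (Y : Type*) [NormedAddCommGroup Y] [NormedSpace ℝ Y] : Prop :=
  ∀ ε : ℝ, 0 < ε → ∃ t : ℝ, 0 < t ∧ ∀ x : Y, ‖x‖ = 1 → ∃ F : Finset (Y →L[ℝ] ℝ),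
    ∀ y : Y, ‖y‖ ≤ t → (∀ Φ ∈ F, Φ y = 0) → ‖x + y‖ ≤ 1 + ε * t

section

variable [CompleteSpace X] {T : X → X} {K : Set X}

theorem exists_hasTree (hK : Minimal T K) (hC : HasClusters K) {z : X} (hz : z ∈ K)
    (hzc : ∀ t > 0, ∀ (F : Finset (X →L[ℝ] ℝ)) (ε : ℝ), 0 < ε →
      ∃ w ∈ almostFixed T K t, ∀ Φ ∈ F, |Φ w - Φ z| < ε)
    (hD : 0 < Metric.diam K) (k : ℕ) :
    ∀ η > 0, ∃ δ > 0, ∀ q ∈ almostFixed T K δ, ∀ (v : X) (a : ℝ),
      (∀ Φ : X →L[ℝ] ℝ, ‖Φ‖ ≤ 1 → Metric.diam K - η ≤ Φ (q - z) → a ≤ Φ v) →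
      HasTree (a + 1 / 8 * k) k v := by
  set D := Metric.diam K
  induction k with
  | zero =>
    intro η hη
    obtain ⟨δ, hδ, hfar⟩ := hK.exists_far hC.hasInter hz hη
    refine ⟨δ, hδ, fun q hq v a h => ?_⟩
    obtain ⟨Φ, hn, hval⟩ := exists_dual_vector'' ℝ (q - z)
    rw [RCLike.ofReal_real_eq_id, id] at hval
    simpa [HasTree] using (h Φ hn (hval ▸ hfar q hq)).trans
      ((le_abs_self _).trans ((Φ.le_opNorm v).trans (mul_le_of_le_one_left (norm_nonneg v) hn)))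
  | succ k ih =>
    intro η hη
    set σ := min 1 (η / (8 * D))
    have hσ : 0 < σ := lt_min one_pos (by positivity)
    have hσ1 : σ ≤ 1 := min_le_left _ _
    have hσD : σ * D ≤ η / 8 := by
      have := mul_le_mul_of_nonneg_right (min_le_right 1 (η / (8 * D))) hD.le
      exact this.trans_eq (by field_simp)
    obtain ⟨δ', hδ', hih⟩ := ih (min (η / 2) (σ * D / 8)) (lt_min (by linarith) (by positivity))
    set θ := min 1 (δ' / D)
    have hθ : 0 < θ := lt_min one_pos (by positivity)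
    set δ := θ * (σ * D / 16)
    have hδ : 0 < δ := by positivity
    have hδθ : δ / θ = σ * D / 16 := by simp only [δ]; field_simp
    refine ⟨δ, hδ, fun q hq v a hqa => ?_⟩
    choose! p hp hpq hpy using fun y (hy : y ∈ almostFixed T K δ) =>
      hK.exists_step hq hy hσ.le hσ1 hθ (min_le_left _ _)
    set ι := Finset (X →L[ℝ] ℝ) × Set.Ioi (0 : ℝ)
    set G : ι → Set X := fun i =>
      {y | y ∈ almostFixed T K δ ∧ ∀ Φ ∈ i.1, |Φ y - Φ z| < i.2.1}
    haveI : Nonempty ι := ⟨(∅, ⟨1, Set.mem_Ioi.mpr one_pos⟩)⟩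
    have hne : (⨅ i, 𝓟 (G i)).NeBot := iInf_neBot_of_directed' (fun i j => by
        classical
        exact ⟨(i.1 ∪ j.1, ⟨min i.2.1 j.2.1, Set.mem_Ioi.mpr
          (lt_min (Set.mem_Ioi.mp i.2.2) (Set.mem_Ioi.mp j.2.2))⟩),
          principal_mono.mpr fun y hy => ⟨hy.1, fun Φ hΦ =>
            (hy.2 Φ (Finset.mem_union_left _ hΦ)).trans_le (min_le_left _ _)⟩,
          principal_mono.mpr fun y hy => ⟨hy.1, fun Φ hΦ =>
            (hy.2 Φ (Finset.mem_union_right _ hΦ)).trans_le (min_le_right _ _)⟩⟩)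
      fun i => principal_neBot_iff.mpr (hzc δ hδ i.1 i.2.1 i.2.2)
    have hG : ∀ i, G i ∈ ⨅ i, 𝓟 (G i) := fun i => mem_iInf_of_mem i (mem_principal_self _)
    have hGA : ∀ᶠ y in ⨅ i, 𝓟 (G i), y ∈ almostFixed T K δ :=
      mem_of_superset (hG (∅, ⟨1, Set.mem_Ioi.mpr one_pos⟩)) fun y hy => hy.1
    obtain ⟨m, hmK, hm⟩ := hC ((⨅ i, 𝓟 (G i)).map p) (map_neBot)
      (mem_map.mpr (mem_of_superset hGA fun y hy => (hp y hy).1))
    have hfind : ∀ (F : Finset (X →L[ℝ] ℝ)) (ε : ℝ), 0 < ε → ∃ y ∈ almostFixed T K δ,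
        ∀ Φ ∈ F, |Φ (p y) - Φ m| < ε ∧ |Φ y - Φ z| < ε := fun F ε hε => by
      obtain ⟨y, hy, hyG⟩ := ((frequently_map.mp (hm F ε hε)).and_eventually
        (hG (F, ⟨ε, Set.mem_Ioi.mpr hε⟩))).exists
      exact ⟨y, hyG.1, fun Φ hΦ => ⟨hy Φ hΦ, hyG.2 Φ hΦ⟩⟩
    have hle : ∀ (Φ : X →L[ℝ] ℝ) (x : X), ‖Φ‖ ≤ 1 → Φ x ≤ ‖x‖ := fun Φ x hn =>
      (le_abs_self _).trans ((Φ.le_opNorm x).trans (mul_le_of_le_one_left (norm_nonneg x) hn))
    have hmz : ∀ Φ : X →L[ℝ] ℝ, ‖Φ‖ ≤ 1 → Φ (m - z) ≤ D - 15 / 16 * (σ * D) := fun Φ hn =>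
      le_of_forall_pos_le_add fun ε hε => by
        obtain ⟨y, hy, h⟩ := hfind {Φ} (ε / 2) (by linarith)
        obtain ⟨h1, h2⟩ := h Φ (Finset.mem_singleton_self _)
        have h3 := (hle Φ (p y - y) hn).trans (hpy y hy)
        rw [hδθ, map_sub] at h3
        rw [map_sub]
        linarith [abs_lt.mp h1, abs_lt.mp h2,
          mul_le_mul_of_nonneg_left (hK.norm_sub_le_diam hy.1 hq.1) (show 0 ≤ 1 - σ by linarith)]
    have hpq' : ∀ y ∈ almostFixed T K δ, ‖p y - q‖ ≤ 17 / 16 * (σ * D) := fun y hy => by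
      linarith [hδθ ▸ hpq y hy, mul_le_mul_of_nonneg_left (hK.norm_sub_le_diam hy.1 hq.1) hσ.le]
    have hmq : ‖m - q‖ ≤ 17 / 16 * (σ * D) := by
      obtain ⟨Φ, hn, hval⟩ := exists_dual_vector'' ℝ (m - q)
      rw [RCLike.ofReal_real_eq_id, id] at hval
      refine le_of_forall_pos_le_add fun ε hε => ?_
      obtain ⟨y, hy, h⟩ := hfind {Φ} ε hε
      have h3 := (hle Φ (p y - q) hn).trans (hpq' y hy)
      rw [map_sub] at h3
      rw [← hval, map_sub]
      linarith [abs_lt.mp (h Φ (Finset.mem_singleton_self _)).1]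
    show WeaklyNull {x | ‖x‖ ≤ 1 ∧ HasTree (a + 1 / 8 * ((k + 1 : ℕ) : ℝ)) k (v + x)}
    intro F ε hε
    obtain ⟨y, hy, h⟩ := hfind F (4 * (σ * D) * ε) (by positivity)
    refine ⟨(4 * (σ * D))⁻¹ • (p y - m), ⟨?_, ?_⟩, fun Φ hΦ => ?_⟩
    · rw [norm_smul_of_nonneg (by positivity), inv_mul_le_iff₀ (by positivity)]
      linarith [norm_sub_le_norm_sub_add_norm_sub (p y) q m, norm_sub_rev q m, hpq' y hy,
        mul_pos hσ hD]
    · have hpA : p y ∈ almostFixed T K δ' := almostFixed_mono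
        ((mul_le_mul_of_nonneg_right (min_le_right _ _) hD.le).trans
          (div_mul_cancel₀ _ hD.ne').le) (hp y hy)
      have := hih (p y) hpA (v + (4 * (σ * D))⁻¹ • (p y - m)) (a + 1 / 8) fun Ψ hn hΨ => by
        have hη1 := min_le_left (η / 2) (σ * D / 8)
        have hη2 := min_le_right (η / 2) (σ * D / 8)
        have hd := (hle Ψ (p y - q) hn).trans (hpq' y hy)
        have hv : a ≤ Ψ v := hqa Ψ hn (by
          have e : Ψ (q - z) = Ψ (p y - z) - Ψ (p y - q) := by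
            rw [← map_sub, sub_sub_sub_cancel_left]
          linarith)
        have hf : 1 / 8 ≤ (4 * (σ * D))⁻¹ * Ψ (p y - m) := by
          rw [le_inv_mul_iff₀ (by positivity)]
          have e : Ψ (p y - m) = Ψ (p y - z) - Ψ (m - z) := by
            rw [← map_sub, sub_sub_sub_cancel_right]
          linarith [hmz Ψ hn, mul_pos hσ hD]
        rw [map_add, map_smul, smul_eq_mul]
        linarith
      rw [show a + 1 / 8 * ((k + 1 : ℕ) : ℝ) = a + 1 / 8 + 1 / 8 * (k : ℝ) by push_cast; ring]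
      exact this
    · rw [map_smul, smul_eq_mul, map_sub, abs_mul, abs_of_pos (by positivity),
        inv_mul_lt_iff₀ (by positivity)]
      exact (h Φ hΦ).1

/-- Weak fixed point property under the tree property. -/
theorem exists_fixed (hX : TreeProperty X) {C : Set X} (hC : HasClusters C) (hne : C.Nonempty)
    (hcl : IsClosed C) (hbd : Bornology.IsBounded C) (hcv : Convex ℝ C) {T : X → X}
    (hT : Set.MapsTo T C C) (hlip : ∀ a ∈ C, ∀ b ∈ C, ‖T a - T b‖ ≤ ‖a - b‖) :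
    ∃ x ∈ C, T x = x := by
  obtain ⟨K, hKC, hK⟩ := exists_minimal hC.hasInter hne hcl hbd hcv hT hlip
  rcases (Metric.diam_nonneg (s := K)).eq_or_lt with hD | hD
  · obtain ⟨x, hx⟩ := hK.nonempty
    exact ⟨x, hKC hx, sub_eq_zero.mp (norm_le_zero_iff.mp
      ((hK.norm_sub_le_diam (hK.maps hx) hx).trans_eq hD.symm))⟩
  exfalso
  have hCK := hC.subset hKC hK.closed hK.convex
  obtain ⟨z, hz, hzc⟩ := hK.exists_centre hCK
  obtain ⟨k, hk⟩ := hX (1 / 8) (by norm_num)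
  obtain ⟨δ, hδ, h⟩ := exists_hasTree hK hCK hz hzc hD k 1 one_pos
  obtain ⟨q, hq⟩ := hK.almostFixed_nonempty hδ
  exact hk (by simpa using h q hq 0 0 fun Φ _ _ => by simp)

end

theorem exists_kernel_close (F : Finset (X →L[ℝ] ℝ)) {ε : ℝ} (hε : 0 < ε) :
    ∃ δ > 0, ∀ y : X, (∀ Φ ∈ F, |Φ y| < δ) → ∃ y₀ : X, (∀ Φ ∈ F, Φ y₀ = 0) ∧ ‖y - y₀‖ ≤ ε := by
  set L : X →L[ℝ] (F → ℝ) := ContinuousLinearMap.pi fun Φ : F => (Φ : X →L[ℝ] ℝ)
  obtain ⟨g, hg⟩ := (L : X →ₗ[ℝ] (F → ℝ)).rangeRestrict.exists_rightInverse_of_surjective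
    (LinearMap.range_rangeRestrict _)
  set G := LinearMap.toContinuousLinearMap g
  refine ⟨ε / (‖G‖ + 1), by positivity, fun y hy => ?_⟩
  set r := (L : X →ₗ[ℝ] (F → ℝ)).rangeRestrict y
  refine ⟨y - G r, fun Φ hΦ => ?_, ?_⟩
  · have h1 : (L : X →ₗ[ℝ] (F → ℝ)).rangeRestrict (g r) = r :=
      LinearMap.congr_fun hg r
    have h2 : Φ (g r) = Φ y := congrFun (congrArg Subtype.val h1) ⟨Φ, hΦ⟩
    simp [G, h2]
  · rw [sub_sub_cancel]
    have hr : ‖r‖ ≤ ε / (‖G‖ + 1) :=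
      (pi_norm_le_iff_of_nonneg (by positivity)).mpr fun Φ => (hy Φ Φ.2).le
    refine ((G.le_opNorm r).trans (mul_le_mul_of_nonneg_left hr (norm_nonneg _))).trans ?_
    rw [mul_div_assoc', div_le_iff₀ (by positivity)]
    nlinarith [norm_nonneg G]

variable {Y : Type*} [NormedAddCommGroup Y] [NormedSpace ℝ Y]

theorem treeProperty_of_asympSmooth (e : X ≃L[ℝ] Y) (hY : AsympSmooth Y) : TreeProperty X := by
  intro c hc
  set s := ‖(e.symm : Y →L[ℝ] X)‖
  set M := ‖(e : X →L[ℝ] Y)‖ + 1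
  have hM : 1 ≤ M := le_add_of_nonneg_left (norm_nonneg _)
  set ε := c / (2 * s + 1)
  have hε : 0 < ε := by positivity
  obtain ⟨t, ht, hAt⟩ := hY (ε / (2 * M)) (by positivity)
  set N := M / t + M
  have hstep : ∀ (r : ℝ) (k : ℕ) (v : X), HasTree r k v → r ≤ s * (max ‖e v‖ N + k * ε) := by
    intro r k
    induction k with
    | zero =>
      intro v hv
      simp only [Nat.cast_zero, zero_mul, add_zero]
      refine (show r ≤ ‖v‖ from hv).trans (le_trans ?_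
        (mul_le_mul_of_nonneg_left (le_max_left _ _) (norm_nonneg _)))
      simpa using (e.symm : Y →L[ℝ] X).le_opNorm (e v)
    | succ k ih =>
      intro v hv
      replace hv : WeaklyNull {x | ‖x‖ ≤ 1 ∧ HasTree r k (v + x)} := hv
      suffices h : ∃ x, HasTree r k (v + x) ∧ ‖e (v + x)‖ ≤ max ‖e v‖ N + ε by
        obtain ⟨x, hx, hxn⟩ := h
        refine (ih _ hx).trans (mul_le_mul_of_nonneg_left ?_ (norm_nonneg _))
        have : max ‖e (v + x)‖ N ≤ max ‖e v‖ N + ε :=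
          max_le hxn ((le_max_right _ _).trans (le_add_of_nonneg_right hε.le))
        push_cast
        linarith
      have hxb : ∀ x : X, ‖x‖ ≤ 1 → ‖e x‖ ≤ M - 1 := fun x hx => by
        simpa [M] using ((e : X →L[ℝ] Y).le_opNorm x).trans
          (mul_le_of_le_one_right (norm_nonneg _) hx)
      rcases le_or_gt ‖e v‖ (M / t) with hsmall | hbig
      · obtain ⟨x, ⟨hx1, hx⟩, -⟩ := hv ∅ 1 one_pos
        refine ⟨x, hx, ?_⟩
        rw [map_add]
        linarith [norm_add_le (e v) (e x), hxb x hx1, le_max_right ‖e v‖ N,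
          show N = M / t + M from rfl]
      set s' := ‖e v‖
      have hs' : 0 < s' := lt_trans (by positivity) hbig
      set u := s'⁻¹ • e v
      have hu : ‖u‖ = 1 := by
        rw [norm_smul_of_nonneg (by positivity), inv_mul_cancel₀ hs'.ne']
      obtain ⟨F, hF⟩ := hAt u hu
      obtain ⟨δ, hδ, hker⟩ := exists_kernel_close F (show (0 : ℝ) < min 1 (ε / 2) from
        lt_min one_pos (by linarith))
      classical
      obtain ⟨x, ⟨hx1, hx⟩, hxF⟩ := hv (F.image fun Φ => Φ.comp (e : X →L[ℝ] Y)) δ hδ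
      refine ⟨x, hx, ?_⟩
      obtain ⟨y₀, hy0, hyd⟩ := hker (e x) fun Φ hΦ =>
        hxF _ (Finset.mem_image_of_mem _ hΦ)
      have hyM : ‖y₀‖ ≤ M := by
        linarith [norm_sub_norm_le y₀ (e x), norm_sub_rev y₀ (e x), hxb x hx1,
          min_le_left 1 (ε / 2)]
      have hw := hF ((t / M) • y₀)
        (by
          rw [norm_smul_of_nonneg (by positivity), div_mul_eq_mul_div, div_le_iff₀ (by linarith)]
          gcongr)
        fun Φ hΦ => by rw [map_smul, hy0 Φ hΦ, smul_zero]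
      set lam := M / (t * s')
      have hlam0 : 0 ≤ lam := by positivity
      have hlam : lam ≤ 1 := by
        rw [div_le_one (by positivity)]
        rw [div_lt_iff₀ ht] at hbig
        linarith
      have e1 : e v + y₀ = s' • ((1 - lam) • u + lam • (u + (t / M) • y₀)) := by
        have h1 : s' • u = e v := smul_inv_smul₀ hs'.ne' _
        have h2 : s' * (lam * (t / M)) = 1 := by
          simp only [lam]; field_simp
        calc e v + y₀ = s' • u + (s' * (lam * (t / M))) • y₀ := by rw [h1, h2, one_smul]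
          _ = _ := by module
      have h3 : ‖e v + y₀‖ ≤ s' + ε / 2 := by
        rw [e1, norm_smul_of_nonneg hs'.le]
        refine (mul_le_mul_of_nonneg_left (norm_add_le _ _) hs'.le).trans ?_
        rw [norm_smul_of_nonneg (by linarith), norm_smul_of_nonneg hlam0, hu]
        have h4 : s' * (lam * (ε / (2 * M) * t)) = ε / 2 := by
          simp only [lam]; field_simp
        have h5 := mul_le_mul_of_nonneg_left hw (mul_nonneg hs'.le hlam0)
        linarith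
      rw [map_add]
      linarith [norm_add_le (e v + y₀) (e x - y₀), min_le_right 1 (ε / 2), le_max_left s' N,
        show e v + y₀ + (e x - y₀) = e v + e x by abel,
        (congrArg norm (show e v + y₀ + (e x - y₀) = e v + e x by abel)).ge]
  obtain ⟨k, hk⟩ := exists_nat_gt (2 * (s * N) / c)
  refine ⟨k, fun hv => ?_⟩
  have h := hstep _ k 0 hv
  rw [map_zero, norm_zero, max_eq_right (by positivity)] at h
  rw [div_lt_iff₀ hc] at hk
  have hsε : 2 * (s * ε) ≤ c := by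
    rw [show ε = c / (2 * s + 1) from rfl, mul_div_assoc', mul_div_assoc',
      div_le_iff₀ (by positivity)]
    nlinarith [norm_nonneg (e.symm : Y →L[ℝ] X)]
  nlinarith [mul_le_mul_of_nonneg_right hsε (Nat.cast_nonneg (α := ℝ) k)]

theorem exists_sum_small {S : Set X} (hS : WeaklyNull S) {ε : ℝ} (hε : 0 < ε) :
    ∃ (ι : Type) (_ : Fintype ι) (w : ι → ℝ) (x : ι → X), (∀ i, 0 ≤ w i) ∧ ∑ i, w i = 1 ∧
      (∀ i, x i ∈ S) ∧ ‖∑ i, w i • x i‖ ≤ ε := by
  have h0 : (0 : X) ∈ closure (convexHull ℝ S) := by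
    by_contra h
    obtain ⟨l, u, hl, hu⟩ := geometric_hahn_banach_closed_point
      (convex_convexHull ℝ S).closure isClosed_closure h
    rw [map_zero] at hu
    obtain ⟨x, hx, hxl⟩ := hS {l} (-u) (by linarith)
    linarith [hl x (subset_closure (subset_convexHull ℝ S hx)),
      abs_lt.mp (hxl l (Finset.mem_singleton_self l))]
  obtain ⟨b, hb, hd⟩ := Metric.mem_closure_iff.mp h0 ε hε
  obtain ⟨ι, _, w, x, hw, hw1, hx, hxb⟩ := mem_convexHull_iff_exists_fintype.mp hb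
  exact ⟨ι, inferInstance, w, x, hw, hw1, hx, by rw [hxb]; simpa using hd.le⟩

/-- Centred distributions of branch sums, by doubling. -/
theorem exists_centred (e : X ≃L[ℝ] Y) {ρ : ℝ} (hρ0 : 0 < ρ)
    (hρ : ∀ {ι : Type} [Fintype ι] (u : ι → ℝ) (A : Y) (B : ι → Y),
      (∀ j, 0 ≤ u j) → ∑ j, u j = 1 → ∑ j, u j • B j = 0 →
      ∑ j, u j * ‖A + B j‖ ^ 2 ≤ ρ * (‖A‖ ^ 2 + ∑ j, u j * ‖B j‖ ^ 2))
    {ε : ℝ} (hε : 0 < ε) (hε1 : ε ≤ 1) (m : ℕ) :
    ∀ (r : ℝ) (b : ℕ) (v : X), HasTree r (2 ^ m + b) v →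
      ∃ (ι : Type) (_ : Fintype ι) (w : ι → ℝ) (F : ι → X),
        (∀ i, 0 ≤ w i) ∧ ∑ i, w i = 1 ∧ ∑ i, w i • F i = 0 ∧
        ∑ i, w i * ‖e (F i)‖ ^ 2 ≤ (2 * ‖(e : X →L[ℝ] Y)‖) ^ 2 * (2 * ρ) ^ m ∧
        ∀ i, ∃ u, ‖u - (v + F i)‖ ≤ 2 ^ m * ε ∧ HasTree r b u := by
  induction m with
  | zero =>
    intro r b v hv
    rw [pow_zero, add_comm] at hv
    replace hv : WeaklyNull {x | ‖x‖ ≤ 1 ∧ HasTree r b (v + x)} := hv
    obtain ⟨ι, _, w, x, hw, hw1, hx, hxε⟩ := exists_sum_small hv hε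
    refine ⟨ι, inferInstance, w, fun i => x i - ∑ j, w j • x j, hw, hw1, ?_, ?_,
      fun i => ⟨v + x i, ?_, (hx i).2⟩⟩
    · simp only [smul_sub, Finset.sum_sub_distrib, ← Finset.sum_smul, hw1, one_smul, sub_self]
    · rw [pow_zero, mul_one]
      calc ∑ i, w i * ‖e (x i - ∑ j, w j • x j)‖ ^ 2
          ≤ ∑ i, w i * (2 * ‖(e : X →L[ℝ] Y)‖) ^ 2 := by
            refine Finset.sum_le_sum fun i _ => mul_le_mul_of_nonneg_left
              (pow_le_pow_left₀ (norm_nonneg _) ?_ 2) (hw i)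
            rw [mul_comm]
            exact ((e : X →L[ℝ] Y).le_opNorm _).trans (mul_le_mul_of_nonneg_left
              ((norm_sub_le _ _).trans (by linarith [(hx i).1])) (norm_nonneg _))
        _ = _ := by rw [← Finset.sum_mul, hw1, one_mul]
    · simpa using hxε
  | succ m ih =>
    intro r b v hv
    rw [pow_succ, show 2 ^ m * 2 + b = 2 ^ m + (2 ^ m + b) by ring] at hv
    obtain ⟨ι, _, w, F, hw, hw1, hF0, hF, hnext⟩ := ih r (2 ^ m + b) v hv
    choose p hp hpt using hnext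
    choose κ instκ u G hu hu1 hG0 hG hlast using fun i => ih r b (p i) (hpt i)
    refine ⟨Σ i, κ i, inferInstance, fun ij => w ij.1 * u ij.1 ij.2,
      fun ij => F ij.1 + G ij.1 ij.2, fun ij => mul_nonneg (hw _) (hu _ _), ?_, ?_, ?_, ?_⟩
    · simp [Fintype.sum_sigma, ← Finset.mul_sum, hu1, hw1]
    · simp only [Fintype.sum_sigma, mul_smul, ← Finset.smul_sum, smul_add, Finset.sum_add_distrib,
        ← Finset.sum_smul, hu1, one_smul, hG0, smul_zero, add_zero, hF0, Finset.sum_const_zero]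
    · calc ∑ ij : (Σ i, κ i), w ij.1 * u ij.1 ij.2 * ‖e (F ij.1 + G ij.1 ij.2)‖ ^ 2
          = ∑ i, w i * ∑ j, u i j * ‖e (F i) + e (G i j)‖ ^ 2 := by
            simp [Fintype.sum_sigma, Finset.mul_sum, mul_assoc]
        _ ≤ ∑ i, w i * (ρ * (‖e (F i)‖ ^ 2 +
              (2 * ‖(e : X →L[ℝ] Y)‖) ^ 2 * (2 * ρ) ^ m)) := by
            refine Finset.sum_le_sum fun i _ => mul_le_mul_of_nonneg_left ?_ (hw i)
            refine (hρ (u i) (e (F i)) (fun j => e (G i j)) (hu i) (hu1 i) ?_).trans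
              (mul_le_mul_of_nonneg_left (add_le_add le_rfl (hG i)) hρ0.le)
            simp only [← map_smul, ← map_sum, hG0, map_zero]
        _ ≤ _ := by
            simp only [mul_left_comm (w _), ← Finset.mul_sum, mul_add, Finset.sum_add_distrib,
              ← Finset.sum_mul, hw1]
            rw [pow_succ (2 * ρ)]
            nlinarith [mul_le_mul_of_nonneg_left hF hρ0.le]
    · intro ij
      obtain ⟨q, hq, hqt⟩ := hlast ij.1 ij.2
      refine ⟨q, ?_, hqt⟩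
      have e1 : q - (v + (F ij.1 + G ij.1 ij.2)) =
          (q - (p ij.1 + G ij.1 ij.2)) + (p ij.1 - (v + F ij.1)) := by abel
      rw [e1, pow_succ]
      linarith [norm_add_le (q - (p ij.1 + G ij.1 ij.2)) (p ij.1 - (v + F ij.1)), hp ij.1]

theorem treeProperty_of_uniformConvex [UniformConvexSpace Y] (e : X ≃L[ℝ] Y) : TreeProperty X := by
  intro c hc
  obtain ⟨ρ, hρ0, hρ2, hρ⟩ := exists_avg_bound (Y := Y)
  set R := 2 * ‖(e : X →L[ℝ] Y)‖
  set s := ‖(e.symm : Y →L[ℝ] X)‖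
  obtain ⟨m, hm⟩ := exists_pow_lt_of_lt_one
    (show (0 : ℝ) < (c / 2) ^ 2 / (s ^ 2 * R ^ 2 + 1) by positivity)
    (show ρ / 2 < 1 by linarith)
  refine ⟨2 ^ m, fun hv => ?_⟩
  obtain ⟨ι, _, w, F, hw, hw1, -, hF, hu⟩ := exists_centred e hρ0 hρ
    (show (0 : ℝ) < min 1 (c / 2) from lt_min one_pos (by linarith)) (min_le_left _ _)
    m _ 0 0 hv
  have hlow : ∀ i, (c / 2 * 2 ^ m) ^ 2 ≤ s ^ 2 * ‖e (F i)‖ ^ 2 := fun i => by
    obtain ⟨u, hu1, hu2⟩ := hu i
    replace hu2 : c * ((2 ^ m : ℕ) : ℝ) ≤ ‖u‖ := hu2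
    push_cast at hu2
    rw [zero_add] at hu1
    have h2 : ‖F i‖ ≤ s * ‖e (F i)‖ := by
      simpa using (e.symm : Y →L[ℝ] X).le_opNorm (e (F i))
    rw [← mul_pow]
    refine pow_le_pow_left₀ (by positivity) ?_ 2
    linarith [norm_sub_norm_le u (F i),
      mul_le_mul_of_nonneg_left (min_le_right 1 (c / 2)) (pow_nonneg zero_le_two m : (0 : ℝ) ≤ 2 ^ m)]
  have hsum : (c / 2 * 2 ^ m) ^ 2 ≤ s ^ 2 * (R ^ 2 * (2 * ρ) ^ m) :=
    calc (c / 2 * 2 ^ m) ^ 2 = ∑ i, w i * (c / 2 * 2 ^ m) ^ 2 := by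
          rw [← Finset.sum_mul, hw1, one_mul]
      _ ≤ ∑ i, w i * (s ^ 2 * ‖e (F i)‖ ^ 2) :=
          Finset.sum_le_sum fun i _ => mul_le_mul_of_nonneg_left (hlow i) (hw i)
      _ = s ^ 2 * ∑ i, w i * ‖e (F i)‖ ^ 2 := by simp only [mul_left_comm (w _), ← Finset.mul_sum]
      _ ≤ _ := mul_le_mul_of_nonneg_left hF (sq_nonneg s)
  have e1 : (2 * ρ) ^ m = (2 ^ m) ^ 2 * (ρ / 2) ^ m := by
    rw [← pow_mul, mul_comm m 2, pow_mul, ← mul_pow]; norm_num; ring_nf
  rw [mul_pow, e1] at hsum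
  rw [lt_div_iff₀ (by positivity)] at hm
  nlinarith [mul_lt_mul_of_pos_left hm (show (0 : ℝ) < (2 ^ m) ^ 2 by positivity),
    show 0 ≤ (2 ^ m) ^ 2 * (ρ / 2) ^ m by positivity]

end Vale.Agent.P079
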